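import Vale.Agent.P093.Minimal
import Vale.Agent.P093.Recode
import Vale.Agent.P093.Examples
import Vale.Agent.P093.Gap.MeanDimWindows
import Vale.Agent.P093.FreePositions
import Vale.Agent.P093.BlockClass

namespace Vale.Agent.Results.P093.CubeMeanDimLowerBound

open Filter Topology Vale.Agent.P093

/-- For a minimal homeomorphism of an infinite compact metrisable space whose window images contain
axis-parallel cubes of dimension at least `m N`, every comparison bound of `C(X) ⋊ ℤ` is at least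
`m/2`. There are minimal systems of mean dimension arbitrarily close to every positive integer
whose comparison bounds are at least half their mean dimension. Systems with free positions of
density `δ` over a space containing a `d`-cube have comparison bounds at least `δ d/2`. Minimal
block subshifts over a polyhedron of dimension `d` leaving the density `δ` of positions free have
mean dimension `δ d` and comparison bounds at least `δ d/2`. The limits `d_τ` exist. -/
theorem result :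
    (∀ (X : Type) [TopologicalSpace X] [CompactSpace X] [T2Space X]
      [TopologicalSpace.MetrizableSpace X] [Infinite X] (h : X ≃ₜ X) (M : ℕ)
      (f : C(X, Fin M → ℝ)) (m : ℝ),
      (∀ x, Dense (Set.range fun n : ℤ => (h.toEquiv ^ n) x)) → CubeWindows h f m →
      ENNReal.ofReal m ≤ _root_.P093.meanDim h ∧
        ∀ r : ℝ, IsComparisonBound h r → m / 2 ≤ r) ∧
    (∀ (X : Type) [TopologicalSpace X] [CompactSpace X] [T2Space X]
      [TopologicalSpace.MetrizableSpace X] [Infinite X] (h : X ≃ₜ X) (K : Type)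
      [TopologicalSpace K] [CompactSpace K] [T2Space K] (f : C(X, K)) (d : ℕ)
      (e : C(Fin d → unitInterval, K)) (δ : ℝ),
      (∀ x, Dense (Set.range fun n : ℤ => (h.toEquiv ^ n) x)) → Function.Injective e →
      (∀ N₀ : ℕ, ∃ N, N₀ ≤ N ∧ ∃ J : Finset (Fin N), δ * N ≤ J.card ∧
        ∃ σ : C(↥J → K, X), (∀ y (p : ↥J), f (h^[(p.1 : ℕ)] (σ y)) = y p) ∧
          ∀ p : Fin N, p ∉ J → ∀ y y', f (h^[(p : ℕ)] (σ y)) = f (h^[(p : ℕ)] (σ y'))) →
      ENNReal.ofReal (δ * d) ≤ _root_.P093.meanDim h ∧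
        ∀ r : ℝ, IsComparisonBound h r → δ * d / 2 ≤ r) ∧
    (∀ (X : Type) [TopologicalSpace X] [CompactSpace X] [T2Space X]
      [TopologicalSpace.MetrizableSpace X] [Infinite X] (h : X ≃ₜ X) (n d : ℕ)
      (S : Finset (Finset (Fin n))) (g : X → Fin n → ℝ) (N : ℕ → ℕ) (J : ℕ → Finset ℕ)
      (w : ℕ → ℕ → Fin n → ℝ),
      (∀ x, Dense (Set.range fun m : ℤ => (h.toEquiv ^ m) x)) →
      (∀ s ∈ S, s.card ≤ d + 1) → (∃ s ∈ S, s.card = d + 1) → Continuous g →
      Function.Injective (fun x (m : ℤ) => g ((h.toEquiv ^ m) x)) →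
      (Set.range fun x (m : ℤ) => g ((h.toEquiv ^ m) x)) =
        ⋂ k, blockSet (polyhedron n S) (N k) (J k) (w k) →
      (∀ k, 0 < N k ∧ J k ⊆ Finset.range (N k) ∧
        blockSet (polyhedron n S) (N (k + 1)) (J (k + 1)) (w (k + 1)) ⊆
          blockSet (polyhedron n S) (N k) (J k) (w k)) →
      _root_.P093.meanDim h = ENNReal.ofReal ((⨅ k, ((J k).card : ℝ) / N k) * d) ∧
        ∀ r : ℝ, IsComparisonBound h r → (⨅ k, ((J k).card : ℝ) / N k) * d / 2 ≤ r) ∧
    (∀ M : ℕ, 0 < M → ∀ ρ : ℝ, 0 ≤ ρ → ρ < 1 →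
      ∃ (X : Type) (_ : TopologicalSpace X) (_ : CompactSpace X) (_ : T2Space X)
        (_ : TopologicalSpace.MetrizableSpace X) (_ : Infinite X) (h : X ≃ₜ X) (m : ℝ),
        (∀ x, Dense (Set.range fun n : ℤ => (h.toEquiv ^ n) x)) ∧ ρ * M ≤ m ∧ m ≤ M ∧
        _root_.P093.meanDim h = ENNReal.ofReal m ∧
        ∀ r : ℝ, IsComparisonBound h r → m / 2 ≤ r) ∧
    (∀ (X : Type) [TopologicalSpace X] [CompactSpace X] (h : X ≃ₜ X) (q : ℕ)
      (τ : TracialState h) (a : Mat h q), 0 ≤ a →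
      Tendsto (fun k : ℕ => trace τ (a ^ ((k : ℝ) + 1)⁻¹)) atTop (𝓝 (dtau τ a))) := by
  have main : ∀ (X : Type) [TopologicalSpace X] [CompactSpace X] [T2Space X]
      [TopologicalSpace.MetrizableSpace X] [Infinite X] (h : X ≃ₜ X) (M : ℕ)
      (f : C(X, Fin M → ℝ)) (m : ℝ),
      (∀ x, Dense (Set.range fun n : ℤ => (h.toEquiv ^ n) x)) → CubeWindows h f m →
      ∀ r : ℝ, IsComparisonBound h r → m / 2 ≤ r := by
    intro X _ _ _ _ _ h M f m hmin hw r hr
    refine bound_of_sparse_minimal hmin (fun L ε hL hε => ?_) hr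
    obtain ⟨L₁, hL₁⟩ := exists_nat_gt (2 / ε)
    have hL₁0 : (0 : ℝ) < L₁ := lt_trans (by positivity) hL₁
    obtain ⟨F, hF⟩ := exists_sparse_recode hw (L := max L L₁) (lt_of_lt_of_le hL (le_max_left _ _))
      (half_pos hε)
    refine ⟨max L L₁ * M, F, fun N₀ => ?_⟩
    obtain ⟨N, hN, Q, hJ, hs⟩ := hF (max N₀ 1)
    refine ⟨N, (le_max_left _ _).trans hN, Q, le_trans ?_ hJ, ?_⟩
    · have h1 : (L₁ : ℝ) ≤ (max L L₁ : ℕ) := by exact_mod_cast le_max_right _ _
      have h2 : 1 / ((max L L₁ : ℕ) : ℝ) ≤ ε / 2 := by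
        rw [div_lt_iff₀ hε] at hL₁
        rw [div_le_iff₀ (lt_of_lt_of_le hL₁0 h1)]
        nlinarith
      refine mul_le_mul_of_nonneg_right ?_ (Nat.cast_nonneg _)
      linarith
    · have h1 : (L : ℝ) ≤ (max L L₁ : ℕ) := by exact_mod_cast le_max_left _ _
      have h2 : (0 : ℝ) < L := by exact_mod_cast hL
      rw [← le_div_iff₀ h2]
      rw [← le_div_iff₀ (lt_of_lt_of_le h2 h1)] at hs
      refine hs.trans ?_
      rw [add_div, add_div, div_self (lt_of_lt_of_le h2 h1).ne', div_self h2.ne']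
      gcongr
  refine ⟨fun X _ _ _ _ _ h M f m hmin hw =>
    ⟨meanDim_ge_of_windows hw, main X h M f m hmin hw⟩, ?_, ?_, fun M hM ρ h0 h1 => ?_,
      fun X _ _ h q τ a ha => tendsto_dtau τ ha⟩
  · intro X _ _ _ _ _ h K _ _ _ f d e δ hmin he hw
    obtain ⟨F, hF⟩ := cubeWindows_of_freePositions f e he hw
    exact ⟨meanDim_ge_of_windows hF, main X h d F (δ * d) hmin hF⟩
  · intro X _ _ _ _ _ h n d S g N J w hmin hS hS' hg hinj hrange hk
    obtain ⟨_, ⟨f, e, he, hw⟩, hle⟩ := blockSystem h g N J w hS hS' hg hinj hrange hk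
    obtain ⟨F, hF⟩ := cubeWindows_of_freePositions f e he hw
    exact ⟨le_antisymm hle (meanDim_ge_of_windows hF), main X h d F _ hmin hF⟩
  obtain ⟨X, i1, i2, i3, i4, i5, h, f, m, hmin, hlo, hhi, hmd, hw⟩ :=
    exists_cubeWindows_system M hM h0 h1
  exact ⟨X, i1, i2, i3, i4, i5, h, m, hmin, hlo, hhi, hmd, fun r hr =>
    main X h M f m hmin hw r hr⟩

end Vale.Agent.Results.P093.CubeMeanDimLowerBound
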